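import Vale.Agent.P295.Tower

namespace Vale.Agent.Results.P295.TowerStableCoord

open MvPolynomial Vale.Agent.P295

/-- In every dimension, a stable coordinate which is a tower of quadrics, or nested linear, is a
coordinate (for the latter the absence of critical points suffices); a linear extension with any
nonzero coefficient whose values at the roots are coordinates is a coordinate. -/
theorem result :
    (∀ (n : ℕ) (f : MvPolynomial (Fin n) ℂ),
      (Tower f → IsStableCoordinate f → IsCoordinate f) ∧
      (Nested f → IsStableCoordinate f → IsCoordinate f) ∧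
      (Nested f → (∀ p : Fin n → ℂ, ∃ i, eval p (pderiv i f) ≠ 0) → IsCoordinate f)) ∧
    ∀ (τ : Type) [Fintype τ] (a : Polynomial ℂ), a ≠ 0 → ∀ b : MvPolynomial (Option τ) ℂ,
      (∀ c, a.IsRoot c → IsCoordinate (spec c b)) → IsCoordinate (linExt a b) :=
  ⟨fun _ _ => ⟨fun hf hs => isCoordinate_of_stable_of_tame hs (hf.tame _),
    fun hf hs => hf.isCoordinate (exists_pderiv_ne_zero_of_stable hs),
    fun hf h => hf.isCoordinate h⟩,
   fun _ _ _ ha b hb => isCoordinate_linExt ha b hb⟩

end Vale.Agent.Results.P295.TowerStableCoord
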